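import Vale.Agent.P299.H598.IX.Op
import Vale.Agent.P299.H720.Iso
import Vale.Agent.P299.H800.Kir.Four

/-!
# P299, INDEX-AVG: change of variables under a biholomorphic map, Fubini for `intX`
-/

open scoped Manifold ContDiff ComplexOrder Topology Matrix ComplexConjugate
open MeasureTheory Set Filter
open Vale.Agent.P272.K Vale.Agent.P272.K.INT Vale.Agent.P299.H720 Vale.Agent.P299.H800.Kir

noncomputable section

namespace Vale.Agent.P299.IX

section
variable {n : ℕ} {X : Type*} [TopologicalSpace X] [ChartedSpace (Cm n) X]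
  [IsManifold 𝓘(ℂ, Cm n) ω X]

/-- change of variables under a biholomorphic map, one pair of charts -/
theorem integral_change_map {F G : Chart n X → Cm n → ℝ} (A : X ≃ₜ X)
    (hA : ContMDiff 𝓘(ℂ, Cm n) 𝓘(ℂ, Cm n) ω A)
    (h : ∀ e e' x, At e x → At e' (A x) →
      F e (e x) = G e' (e' (A x)) * ‖(D.jacF A e e' x).det‖ ^ 2)
    {e e' : Chart n X} (he : e ∈ atlas (Cm n) X) (he' : e' ∈ atlas (Cm n) X) {f : X → ℝ}
    (h1 : ∀ x ∈ e.source, A x ∉ e'.source → f x = 0)
    (h2 : ∀ y ∈ e'.source, A.symm y ∉ e.source → f (A.symm y) = 0) :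
    ∫ z in e.target, f (e.symm z) * F e z =
      ∫ z in e'.target, f (A.symm (e'.symm z)) * G e' z := by
  set S := (e.symm ≫ₕ A.toOpenPartialHomeomorph) ≫ₕ e' with hS
  have hsrc : S.source = e.target ∩ {z | A (e.symm z) ∈ e'.source} := by
    rw [hS, OpenPartialHomeomorph.trans_source, OpenPartialHomeomorph.trans_source]
    ext z
    simp
  have htgt : S.target = e'.target ∩ {z | A.symm (e'.symm z) ∈ e.source} := by
    rw [hS, OpenPartialHomeomorph.trans_target, OpenPartialHomeomorph.trans_target]
    ext z
    simp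
  have e1 : ∫ z in e.target, f (e.symm z) * F e z = ∫ z in S.source, f (e.symm z) * F e z := by
    apply setIntegral_eq_of_subset_of_forall_sdiff_eq_zero e.open_target.measurableSet
    · rw [hsrc]; exact inter_subset_left
    · intro z hz
      have : A (e.symm z) ∉ e'.source := fun h => hz.2 (by rw [hsrc]; exact ⟨hz.1, h⟩)
      rw [h1 _ (e.map_target hz.1) this, zero_mul]
  have e2 : ∫ z in e'.target, f (A.symm (e'.symm z)) * G e' z
      = ∫ z in S.target, f (A.symm (e'.symm z)) * G e' z := by
    apply setIntegral_eq_of_subset_of_forall_sdiff_eq_zero e'.open_target.measurableSet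
    · rw [htgt]; exact inter_subset_left
    · intro z hz
      have : A.symm (e'.symm z) ∉ e.source := fun h => hz.2 (by rw [htgt]; exact ⟨hz.1, h⟩)
      rw [h2 _ (e'.map_target hz.1) this, zero_mul]
  have e3 : (S : Cm n → Cm n) '' S.source = S.target := S.image_source_eq_target
  have hSz : ∀ z, S z = e' (A (e.symm z)) := fun z => rfl
  have hdiff : ∀ z ∈ S.source, DifferentiableAt ℂ S z := by
    intro z hz
    rw [hsrc] at hz
    have hx : At e (e.symm z) := ⟨he, e.map_target hz.1⟩
    have hx' : At e' (A (e.symm z)) := ⟨he', hz.2⟩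
    have h := rep_differentiableAt hA.contMDiffAt hx hx'
    rw [e.right_inv hz.1] at h
    exact h
  have hd : ∀ z ∈ S.source, HasFDerivWithinAt S (fderiv ℝ S z) S.source z := fun z hz =>
    ((hdiff z hz).restrictScalars ℝ).hasFDerivAt.hasFDerivWithinAt
  rw [e1, e2, ← e3, integral_image_eq_integral_abs_det_fderiv_smul volume
    S.open_source.measurableSet hd S.injOn]
  apply setIntegral_congr_fun S.open_source.measurableSet
  intro z hz
  have hz' := hz
  rw [hsrc] at hz'
  have hx : At e (e.symm z) := ⟨he, e.map_target hz'.1⟩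
  have hx' : At e' (A (e.symm z)) := ⟨he', hz'.2⟩
  have hdet : (fderiv ℝ S z).det = ‖(D.jacF A e e' (e.symm z)).det‖ ^ 2 := by
    rw [det_fderiv_real (hdiff z hz)]
    have h3 : e (e.symm z) = z := e.right_inv hz'.1
    unfold D.jacF
    rw [h3]
    rfl
  have hch := h e e' (e.symm z) hx hx'
  rw [e.right_inv hz'.1] at hch
  simp only [smul_eq_mul]
  rw [hdet, hSz, e'.left_inv hz'.2, hch, abs_of_nonneg (by positivity), A.symm_apply_apply]
  ring

variable [T2Space X] [CompactSpace X]

/-- **change of variables** under a biholomorphic map -/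
theorem intX_map {F G : Chart n X → Cm n → ℝ} (hF : IsDensity F) (hG : IsDensity G) (A : X ≃ₜ X)
    (hA : ContMDiff 𝓘(ℂ, Cm n) 𝓘(ℂ, Cm n) ω A)
    (h : ∀ e e' x, At e x → At e' (A x) →
      F e (e x) = G e' (e' (A x)) * ‖(D.jacF A e e' x).det‖ ^ 2) :
    intX F = intX G := by
  set P := part n X with hP
  have key : ∀ i, ∫ z in (P.e i).target, P.ρ i ((P.e i).symm z) * F (P.e i) z =
      ∑ j, ∫ z in (P.e i).target,
        (P.ρ i ((P.e i).symm z) * P.ρ j (A ((P.e i).symm z))) * F (P.e i) z := by
    intro i
    rw [← integral_finsetSum]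
    · congr 1
      ext z
      rw [← Finset.sum_mul, ← Finset.mul_sum, P.sum, mul_one]
    · intro j _
      exact integrableOn_dens hF (P.mem i) (f := fun x => P.ρ i x * P.ρ j (A x))
        ((P.cont i).mul ((P.cont j).comp A.continuous))
        (tsupport_mul_subset_left'.trans (P.supp i))
  have key' : ∀ j, ∫ z in (P.e j).target, P.ρ j ((P.e j).symm z) * G (P.e j) z =
      ∑ i, ∫ z in (P.e j).target,
        (P.ρ i (A.symm ((P.e j).symm z)) * P.ρ j (A (A.symm ((P.e j).symm z)))) * G (P.e j) z := by
    intro j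
    rw [← integral_finsetSum]
    · congr 1
      ext z
      rw [← Finset.sum_mul, ← Finset.sum_mul, P.sum, one_mul, A.apply_symm_apply]
    · intro i _
      have : IntegrableOn (fun z => (P.ρ i (A.symm ((P.e j).symm z)) * P.ρ j ((P.e j).symm z)) *
          G (P.e j) z) (P.e j).target :=
        integrableOn_dens hG (P.mem j) (f := fun x => P.ρ i (A.symm x) * P.ρ j x)
          (((P.cont i).comp A.symm.continuous).mul (P.cont j))
          (tsupport_mul_subset_right'.trans (P.supp j))
      simp only [A.apply_symm_apply]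
      exact this
  unfold intX
  rw [← hP, Finset.sum_congr rfl fun i _ => key i, Finset.sum_congr rfl fun j _ => key' j,
    Finset.sum_comm]
  refine Finset.sum_congr rfl fun j _ => Finset.sum_congr rfl fun i _ => ?_
  refine integral_change_map (f := fun x => P.ρ i x * P.ρ j (A x)) A hA h (P.mem i) (P.mem j) ?_ ?_
  · intro x _ hx
    show P.ρ i x * P.ρ j (A x) = 0
    rw [image_eq_zero_of_notMem_tsupport (fun h => hx (P.supp j h)), mul_zero]
  · intro y _ hy
    show P.ρ i (A.symm y) * P.ρ j (A (A.symm y)) = 0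
    rw [image_eq_zero_of_notMem_tsupport (fun h => hy (P.supp i h)), zero_mul]

/-- the complex version -/
theorem intC_map {F G : Chart n X → Cm n → ℂ} (hF : IsDen F) (hG : IsDen G) (A : X ≃ₜ X)
    (hA : ContMDiff 𝓘(ℂ, Cm n) 𝓘(ℂ, Cm n) ω A)
    (h : ∀ e e' x, At e x → At e' (A x) →
      F e (e x) = G e' (e' (A x)) * ((‖(D.jacF A e e' x).det‖ ^ 2 : ℝ) : ℂ)) :
    intC F = intC G := by
  unfold intC
  rw [intX_map hF.re hG.re A hA fun e e' x hx hx' => by rw [h e e' x hx hx', Complex.re_mul_ofReal],
    intX_map hF.im hG.im A hA fun e e' x hx hx' => by rw [h e e' x hx hx', Complex.im_mul_ofReal]]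

/-- **Fubini** for `intX` and the integral over a cube -/
theorem intX_integral {r : ℕ} {F : (Fin r → ℝ) → Chart n X → Cm n → ℝ}
    (hF : ∀ e ∈ atlas (Cm n) X,
      ContinuousOn (fun q : (Fin r → ℝ) × Cm n => F q.1 e q.2) (univ ×ˢ e.target))
    (a : Fin r → ℝ) :
    IntegrableOn (fun t => intX (F t)) (cube a) ∧
      intX (fun e z => ∫ t in cube a, F t e z) = ∫ t in cube a, intX (F t) := by
  set P := part n X with hP
  -- the pieces
  have hpiece : ∀ i, IntegrableOn (fun t => ∫ z in (P.e i).target,
        P.ρ i ((P.e i).symm z) * F t (P.e i) z) (cube a) ∧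
      ∫ z in (P.e i).target, P.ρ i ((P.e i).symm z) * (∫ t in cube a, F t (P.e i) z) =
        ∫ t in cube a, ∫ z in (P.e i).target, P.ρ i ((P.e i).symm z) * F t (P.e i) z := by
    intro i
    set e := P.e i with he
    set K : Set (Cm n) := e '' tsupport (P.ρ i) with hK
    have hKc : IsCompact K :=
      (isClosed_tsupport (P.ρ i)).isCompact.image_of_continuousOn (e.continuousOn.mono (P.supp i))
    have hKt : K ⊆ e.target := by
      rintro _ ⟨x, hx, rfl⟩; exact e.map_source (P.supp i hx)
    have hoff : ∀ z ∈ e.target, z ∉ K → P.ρ i (e.symm z) = 0 := by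
      intro z hz hzK
      refine image_eq_zero_of_notMem_tsupport fun h => hzK ⟨_, h, e.right_inv hz⟩
    have hred : ∀ g : Cm n → ℝ, ∫ z in e.target, P.ρ i (e.symm z) * g z =
        ∫ z in K, P.ρ i (e.symm z) * g z := by
      intro g
      apply setIntegral_eq_of_subset_of_forall_sdiff_eq_zero e.open_target.measurableSet hKt
      intro z hz
      rw [hoff z hz.1 hz.2, zero_mul]
    set g : (Fin r → ℝ) × Cm n → ℝ := fun q => P.ρ i (e.symm q.2) * F q.1 e q.2 with hg
    have hgc : ContinuousOn g (Icc a (a + 1) ×ˢ K) := by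
      refine ContinuousOn.mul ?_ ((hF e (P.mem i)).mono (prod_mono (subset_univ _) hKt))
      have h1 : ContinuousOn (fun z => P.ρ i (e.symm z)) K :=
        (P.cont i).comp_continuousOn (e.continuousOn_symm.mono hKt)
      exact h1.comp continuous_snd.continuousOn fun q hq => hq.2
    have hgi : Integrable g ((volume.restrict (cube a)).prod (volume.restrict K)) := by
      rw [Measure.prod_restrict]
      exact (hgc.integrableOn_compact (isCompact_Icc.prod hKc)).mono_set
        (prod_mono (cube_subset a) le_rfl)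
    constructor
    · simp only [hred]
      exact hgi.integral_prod_left
    · rw [hred]
      simp only [hred]
      have hsw : ∫ t in cube a, ∫ z in K, P.ρ i (e.symm z) * F t e z =
          ∫ z in K, ∫ t in cube a, P.ρ i (e.symm z) * F t e z :=
        integral_integral_swap (f := fun t z => g (t, z)) hgi
      rw [hsw]
      refine integral_congr_ae (Eventually.of_forall fun z => ?_)
      show P.ρ i (e.symm z) * (∫ t in cube a, F t e z) = _
      rw [← integral_const_mul]
  constructor
  · unfold intX
    rw [← hP]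
    exact integrable_finsetSum _ fun i _ => (hpiece i).1
  · unfold intX
    rw [← hP, integral_finsetSum _ fun i _ => (hpiece i).1]
    exact Finset.sum_congr rfl fun i _ => (hpiece i).2

/-- a function continuous in the parameters is integrable over the cube -/
lemma integrableOn_cube {r : ℕ} {E : Type*} [NormedAddCommGroup E] {f : (Fin r → ℝ) → E}
    (hf : Continuous f) (a : Fin r → ℝ) : IntegrableOn f (cube a) :=
  (hf.continuousOn.integrableOn_compact isCompact_Icc).mono_set (cube_subset a)

omit [IsManifold 𝓘(ℂ, Cm n) ω X] [T2Space X] [CompactSpace X] [ChartedSpace (Cm n) X] in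
lemma continuous_slice {r : ℕ} {E : Type*} [TopologicalSpace E] {e : Chart n X}
    {g : (Fin r → ℝ) × Cm n → E} (hg : ContinuousOn g (univ ×ˢ e.target)) {z : Cm n}
    (hz : z ∈ e.target) : Continuous fun t => g (t, z) :=
  hg.comp_continuous (by fun_prop) fun _ => ⟨mem_univ _, hz⟩

/-- **Fubini**, complex version -/
theorem intC_integral {r : ℕ} {F : (Fin r → ℝ) → Chart n X → Cm n → ℂ}
    (hF : ∀ e ∈ atlas (Cm n) X,
      ContinuousOn (fun q : (Fin r → ℝ) × Cm n => F q.1 e q.2) (univ ×ˢ e.target))
    (a : Fin r → ℝ) :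
    IntegrableOn (fun t => intC (F t)) (cube a) ∧
      intC (fun e z => ∫ t in cube a, F t e z) = ∫ t in cube a, intC (F t) := by
  obtain ⟨h1, h2⟩ := intX_integral (F := fun t e z => (F t e z).re)
    (fun e he => Complex.continuous_re.comp_continuousOn (hF e he)) a
  obtain ⟨h3, h4⟩ := intX_integral (F := fun t e z => (F t e z).im)
    (fun e he => Complex.continuous_im.comp_continuousOn (hF e he)) a
  have hint : ∀ e x, At (n := n) (X := X) e x → IntegrableOn (fun t => F t e (e x)) (cube a) :=
    fun e x h => integrableOn_cube (continuous_slice (hF e h.1) (e.map_source h.2)) a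
  have h5 : intX (fun e z => (∫ t in cube a, F t e z).re) =
      intX (fun e z => ∫ t in cube a, (F t e z).re) :=
    intX_congr fun e x h => (Complex.reCLM.integral_comp_comm (hint e x h)).symm
  have h6 : intX (fun e z => (∫ t in cube a, F t e z).im) =
      intX (fun e z => ∫ t in cube a, (F t e z).im) :=
    intX_congr fun e x h => (Complex.imCLM.integral_comp_comm (hint e x h)).symm
  have h7 : IntegrableOn (fun t => ((intX fun e z => (F t e z).re : ℝ) : ℂ)) (cube a) :=
    Integrable.ofReal h1
  have h8 : IntegrableOn (fun t => Complex.I * ((intX fun e z => (F t e z).im : ℝ) : ℂ)) (cube a) :=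
    (Integrable.ofReal h3).const_mul _
  refine ⟨h7.add h8, ?_⟩
  unfold intC
  rw [h5, h6, h2, h4, integral_add h7 h8, integral_complex_ofReal, integral_const_mul,
    integral_complex_ofReal]

end

end Vale.Agent.P299.IX
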