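import Vale.Agent.P299.H435.Avg.Change

/-!
# P299, INDEX-AVG: pull back of sections by a lifted torus action, averages
-/

open scoped Manifold ContDiff ComplexOrder Topology Matrix ComplexConjugate
open MeasureTheory Set Filter
open Vale.Agent.P272.K Vale.Agent.P272.K.INT Vale.Agent.P299.H720 Vale.Agent.P299.H800.Kir

noncomputable section

namespace Vale.Agent.P299.IX

section
variable {r n : ℕ} {Z : Type} [TopologicalSpace Z] [ChartedSpace (Cm n) Z] {w : D.FormM n Z}

/-- the homeomorphisms of a torus action -/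
def tHomeo (T : D.TorusAct r n Z w) (t : Fin r → ℝ) : Z ≃ₜ Z where
  toFun := T.a t
  invFun := T.a (-t)
  left_inv z := by rw [← T.add, neg_add_cancel, T.zero]
  right_inv z := by rw [← T.add, add_neg_cancel, T.zero]
  continuous_toFun := T.cont.comp (by fun_prop : Continuous fun z : Z => (t, z))
  continuous_invFun := T.cont.comp (by fun_prop : Continuous fun z : Z => (-t, z))

lemma tHomeo_coe (T : D.TorusAct r n Z w) (t : Fin r → ℝ) : (tHomeo T t : Z → Z) = T.a t := rfl

lemma tHomeo_symm_coe (T : D.TorusAct r n Z w) (t : Fin r → ℝ) :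
    ((tHomeo T t).symm : Z → Z) = T.a (-t) := rfl

lemma at_chartAt' (x : Z) : At (chartAt (Cm n) x) x := ⟨chart_mem_atlas _ x, mem_chart_source _ x⟩

/-- near `(t, e x)` the point `T.a s (e.symm z)` stays in the chart domain -/
lemma nhds_act (T : D.TorusAct r n Z w) {t : Fin r → ℝ} {e e' : Chart n Z} {x : Z} (h : At e x)
    (h' : At e' (T.a t x)) : ∀ᶠ q : (Fin r → ℝ) × Cm n in 𝓝 (t, e x),
      q.2 ∈ e.target ∧ At e (e.symm q.2) ∧ At e' (T.a q.1 (e.symm q.2)) := by
  have h1 : Tendsto (fun q : (Fin r → ℝ) × Cm n => q.2) (𝓝 (t, e x)) (𝓝 (e x)) :=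
    (continuous_snd.tendsto _)
  have h2 : ∀ᶠ q : (Fin r → ℝ) × Cm n in 𝓝 (t, e x), q.2 ∈ e.target :=
    h1.eventually (e.open_target.mem_nhds (e.map_source h.2))
  have h3 : Tendsto (fun q : (Fin r → ℝ) × Cm n => e.symm q.2) (𝓝 (t, e x)) (𝓝 x) := by
    have := (e.continuousAt_symm (e.map_source h.2)).tendsto.comp h1
    rwa [e.left_inv h.2] at this
  have h4 : Tendsto (fun q : (Fin r → ℝ) × Cm n => T.a q.1 (e.symm q.2)) (𝓝 (t, e x))
      (𝓝 (T.a t x)) :=
    (T.cont.tendsto (t, x)).comp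
      ((continuous_fst.tendsto (t, e x)).prodMk_nhds h3)
  filter_upwards [h2, h4.eventually (e'.open_source.mem_nhds h'.2)] with q hq hq'
  exact ⟨hq, ⟨h.1, e.map_target hq⟩, ⟨h'.1, hq'⟩⟩

variable {T : D.TorusAct r n Z w} {κ : Type*} [Fintype κ] [DecidableEq κ] {B : Bun n Z κ}

namespace Lift

/-- the pull back of a section, in local functions -/
def pbf (L : Lift T B) (s : B.S) (t : Fin r → ℝ) : Chart n Z → Cm n → κ → ℂ := fun e z =>
  L.R t e (chartAt (Cm n) (T.a t (e.symm z))) (e.symm z) *ᵥ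
    s.f (chartAt (Cm n) (T.a t (e.symm z)))
      (chartAt (Cm n) (T.a t (e.symm z)) (T.a t (e.symm z)))

lemma pbf_at (L : Lift T B) (s : B.S) {t : Fin r → ℝ} {e e' : Chart n Z} {x : Z} (h : At e x)
    (h' : At e' (T.a t x)) : L.pbf s t e (e x) = L.R t e e' x *ᵥ s.f e' (e' (T.a t x)) := by
  unfold pbf
  rw [e.left_inv h.2]
  have hc : At (chartAt (Cm n) (T.a t x)) (T.a t x) := at_chartAt' _
  rw [← L.right t e e' _ x h h' hc, ← Matrix.mulVec_mulVec, ← s.change h' hc]

/-- joint smoothness of the pull back -/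
lemma pbf_smooth (L : Lift T B) (s : B.S) {t : Fin r → ℝ} {e : Chart n Z} {x : Z} (h : At e x)
    (i : κ) : ContDiffAt ℝ ∞ (fun q : (Fin r → ℝ) × Cm n => L.pbf s q.1 e q.2 i) (t, e x) := by
  set e' := chartAt (Cm n) (T.a t x) with he'
  have hc : At e' (T.a t x) := at_chartAt' _
  have h1 : (fun q : (Fin r → ℝ) × Cm n => L.pbf s q.1 e q.2 i) =ᶠ[𝓝 (t, e x)] fun q =>
      ∑ j, L.R q.1 e e' (e.symm q.2) i j * s.f e' (e' (T.a q.1 (e.symm q.2))) j := by
    filter_upwards [nhds_act T h hc] with q hq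
    have := L.pbf_at s hq.2.1 hq.2.2
    rw [e.right_inv hq.1] at this
    rw [this]
    rfl
  refine ContDiffAt.congr_of_eventuallyEq ?_ h1
  refine ContDiffAt.sum fun j _ => (L.smooth t e e' x h hc i j).mul ?_
  have h2 : ContDiffAt ℝ ∞ (fun z => s.f e' z j) (e' (T.a (t, e x).1 (e.symm (t, e x).2))) := by
    show ContDiffAt ℝ ∞ (fun z => s.f e' z j) (e' (T.a t (e.symm (e x))))
    rw [e.left_inv h.2]
    exact s.smooth hc j
  exact h2.comp (t, e x) (T.smooth t x e e' h hc)

lemma pbf_contDiffOn (L : Lift T B) (s : B.S) {e : Chart n Z} (he : e ∈ atlas (Cm n) Z) (i : κ) :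
    ContDiffOn ℝ ∞ (fun q : (Fin r → ℝ) × Cm n => L.pbf s q.1 e q.2 i) (univ ×ˢ e.target) := by
  rintro ⟨t, z⟩ ⟨-, hz⟩
  have := L.pbf_smooth s (t := t) (e := e) (x := e.symm z) ⟨he, e.map_target hz⟩ i
  rw [e.right_inv hz] at this
  exact this.contDiffWithinAt

lemma isSec_pbf (L : Lift T B) (s : B.S) (t : Fin r → ℝ) : B.IsSec (L.pbf s t) where
  smooth e x h i := by
    have h1 := L.pbf_smooth s (t := t) h i
    exact h1.comp (e x) (f := fun z : Cm n => (t, z)) (contDiffAt_const.prodMk contDiffAt_id)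
  change e e' x h h' := by
    have hc : At (chartAt (Cm n) (T.a t x)) (T.a t x) := at_chartAt' _
    rw [L.pbf_at s h hc, L.pbf_at s h' hc, Matrix.mulVec_mulVec, L.left t e e' _ x h h' hc]

/-- **the pull back** of a section by `T.a t` -/
def pb (L : Lift T B) (t : Fin r → ℝ) : B.S →ₗ[ℂ] B.S where
  toFun s := Bun.mkS (L.pbf s t) (L.isSec_pbf s t)
  map_add' s u := by
    refine Bun.S.ext_f fun e x h => ?_
    have hc : At (chartAt (Cm n) (T.a t x)) (T.a t x) := at_chartAt' _
    rw [Bun.S.add_f, Pi.add_apply, Pi.add_apply, Bun.mkS_f, Bun.mkS_f, Bun.mkS_f, Bun.cut_at h,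
      Bun.cut_at h, Bun.cut_at h, L.pbf_at _ h hc, L.pbf_at _ h hc, L.pbf_at _ h hc,
      Bun.S.add_f, Pi.add_apply, Pi.add_apply, Matrix.mulVec_add]
  map_smul' c s := by
    refine Bun.S.ext_f fun e x h => ?_
    have hc : At (chartAt (Cm n) (T.a t x)) (T.a t x) := at_chartAt' _
    rw [RingHom.id_apply, Bun.S.smul_f, Pi.smul_apply, Pi.smul_apply, Bun.mkS_f, Bun.mkS_f,
      Bun.cut_at h, Bun.cut_at h, L.pbf_at _ h hc, L.pbf_at _ h hc,
      Bun.S.smul_f, Pi.smul_apply, Pi.smul_apply, Matrix.mulVec_smul]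

lemma pb_f (L : Lift T B) (s : B.S) {t : Fin r → ℝ} {e : Chart n Z} {x : Z} (h : At e x) :
    (L.pb t s).f e (e x) = L.pbf s t e (e x) := Bun.cut_at h

lemma pb_f' (L : Lift T B) (s : B.S) {t : Fin r → ℝ} {e : Chart n Z} (he : e ∈ atlas (Cm n) Z)
    {z : Cm n} (hz : z ∈ e.target) : (L.pb t s).f e z = L.pbf s t e z := Bun.cut_eq he hz

lemma pb_at (L : Lift T B) (s : B.S) {t : Fin r → ℝ} {e e' : Chart n Z} {x : Z} (h : At e x)
    (h' : At e' (T.a t x)) : (L.pb t s).f e (e x) = L.R t e e' x *ᵥ s.f e' (e' (T.a t x)) := by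
  rw [L.pb_f s h, L.pbf_at s h h']

lemma pb_zero (L : Lift T B) (s : B.S) : L.pb 0 s = s := by
  refine Bun.S.ext_f fun e x h => ?_
  have h' : At e (T.a 0 x) := by rw [T.zero]; exact h
  rw [L.pb_at s h h', L.zero e x h, T.zero, Matrix.one_mulVec]

lemma pb_add (L : Lift T B) (s t : Fin r → ℝ) (u : B.S) :
    L.pb (s + t) u = L.pb t (L.pb s u) := by
  refine Bun.S.ext_f fun e x h => ?_
  have h1 : At (chartAt (Cm n) (T.a t x)) (T.a t x) := at_chartAt' _
  have h2 : At (chartAt (Cm n) (T.a s (T.a t x))) (T.a s (T.a t x)) := at_chartAt' _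
  have h3 : At (chartAt (Cm n) (T.a s (T.a t x))) (T.a (s + t) x) := by rw [T.add]; exact h2
  rw [L.pb_at u h h3, L.pb_at (L.pb s u) h h1, L.pb_at u h1 h2, Matrix.mulVec_mulVec,
    L.add s t e _ _ x h h1 h2, T.add]

lemma pb_comm (L : Lift T B) (s t : Fin r → ℝ) (u : B.S) :
    L.pb s (L.pb t u) = L.pb t (L.pb s u) := by
  rw [← L.pb_add, ← L.pb_add, add_comm]

lemma pb_per (L : Lift T B) (k : Fin r → ℤ) (u : B.S) : L.pb (zv k) u = u := by
  refine Bun.S.ext_f fun e x h => ?_
  have h' : At e (T.a (zv k) x) := by unfold zv; rw [T.per]; exact h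
  rw [L.pb_at u h h']
  unfold zv
  rw [L.per k e x h, T.per, Matrix.one_mulVec]

lemma pb_add_per (L : Lift T B) (t : Fin r → ℝ) (k : Fin r → ℤ) (u : B.S) :
    L.pb (t + zv k) u = L.pb t u := by
  rw [add_comm, L.pb_add, L.pb_per]

lemma pb_neg_pb (L : Lift T B) (t : Fin r → ℝ) (u : B.S) : L.pb (-t) (L.pb t u) = u := by
  rw [← L.pb_add, add_neg_cancel, L.pb_zero]

lemma pb_pb_neg (L : Lift T B) (t : Fin r → ℝ) (u : B.S) : L.pb t (L.pb (-t) u) = u := by
  rw [← L.pb_add, neg_add_cancel, L.pb_zero]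

lemma den_pb (L : Lift T B) (s u : B.S) {t : Fin r → ℝ} {e e' : Chart n Z} {x : Z} (h : At e x)
    (h' : At e' (T.a t x)) : B.den (L.pb t s).f (L.pb t u).f e (e x) =
      B.den s.f u.f e' (e' (T.a t x)) * ((‖(D.jacF (T.a t) e e' x).det‖ ^ 2 : ℝ) : ℂ) := by
  unfold Bun.den
  rw [L.pb_at s h h', L.pb_at u h h', Matrix.star_mulVec, Matrix.mulVec_mulVec,
    ← Matrix.dotProduct_mulVec, Matrix.mulVec_mulVec, ← Matrix.mul_assoc, L.iso t e e' x h h',
    Matrix.smul_mulVec, dotProduct_smul, smul_eq_mul, mul_comm]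

/-- the average, in local functions -/
def avgf (L : Lift T B) (s : B.S) : Chart n Z → Cm n → κ → ℂ := fun e z i =>
  ∫ t in cube (0 : Fin r → ℝ), L.pbf s t e z i

lemma pbf_cont (L : Lift T B) (s : B.S) {e : Chart n Z} {x : Z} (h : At e x) (i : κ) :
    Continuous fun t => L.pbf s t e (e x) i := by
  rw [continuous_iff_continuousAt]
  intro t
  exact ContinuousAt.comp (f := fun t : Fin r → ℝ => (t, e x))
    (L.pbf_smooth s (t := t) h i).continuousAt (by fun_prop)

lemma pb_cont (L : Lift T B) (s : B.S) {e : Chart n Z} {x : Z} (h : At e x) (i : κ) :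
    Continuous fun t => (L.pb t s).f e (e x) i := by
  have : (fun t => (L.pb t s).f e (e x) i) = fun t => L.pbf s t e (e x) i :=
    funext fun t => by rw [L.pb_f s h]
  rw [this]
  exact L.pbf_cont s h i

lemma avgf_at (L : Lift T B) (s : B.S) {e : Chart n Z} {x : Z} (h : At e x) (i : κ) :
    L.avgf s e (e x) i = ∫ t in cube (0 : Fin r → ℝ), (L.pb t s).f e (e x) i := by
  unfold avgf
  simp only [L.pb_f s h]

omit [DecidableEq κ] in
/-- a matrix applied to an average -/
lemma mulVec_integral {v : (Fin r → ℝ) → κ → ℂ} (hv : ∀ i, Continuous fun t => v t i)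
    (M : Matrix κ κ ℂ) (i : κ) :
    (M *ᵥ fun j => ∫ t in cube (0 : Fin r → ℝ), v t j) i =
      ∫ t in cube (0 : Fin r → ℝ), (M *ᵥ v t) i := by
  simp only [Matrix.mulVec, dotProduct]
  rw [integral_finsetSum _ fun j _ => (integrableOn_cube (hv j) 0).const_mul (M i j)]
  exact Finset.sum_congr rfl fun j _ => (integral_const_mul _ _).symm

lemma isSec_avgf (L : Lift T B) (s : B.S) : B.IsSec (L.avgf s) where
  smooth e x h i := by
    have h1 := integral_cube_param (r := r) e.open_target (L.pbf_contDiffOn s h.1 i) 0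
    exact h1.contDiffAt (e.open_target.mem_nhds (e.map_source h.2))
  change e e' x h h' := by
    funext i
    have h1 : L.avgf s e' (e' x) = fun j => ∫ t in cube (0 : Fin r → ℝ), L.pbf s t e' (e' x) j :=
      rfl
    rw [h1, mulVec_integral (fun j => L.pbf_cont s h' j)]
    unfold avgf
    refine integral_congr_ae (Eventually.of_forall fun t => ?_)
    show L.pbf s t e (e x) i = _
    rw [(L.isSec_pbf s t).change e e' x h h']

/-- **the average** of a section over the torus -/
def avg (L : Lift T B) : B.S →ₗ[ℂ] B.S where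
  toFun s := Bun.mkS (L.avgf s) (L.isSec_avgf s)
  map_add' s u := by
    refine Bun.S.ext_f fun e x h => ?_
    funext i
    rw [Bun.S.add_f, Pi.add_apply, Pi.add_apply, Bun.mkS_f, Bun.mkS_f, Bun.mkS_f, Bun.cut_at h,
      Bun.cut_at h, Bun.cut_at h, Pi.add_apply, L.avgf_at _ h, L.avgf_at _ h, L.avgf_at _ h,
      ← integral_add (integrableOn_cube (L.pb_cont s h i) 0) (integrableOn_cube (L.pb_cont u h i) 0)]
    refine integral_congr_ae (Eventually.of_forall fun t => ?_)
    show (L.pb t (s + u)).f e (e x) i = _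
    rw [map_add]
    rfl
  map_smul' c s := by
    refine Bun.S.ext_f fun e x h => ?_
    funext i
    rw [RingHom.id_apply, Bun.S.smul_f, Pi.smul_apply, Pi.smul_apply, Bun.mkS_f, Bun.mkS_f,
      Bun.cut_at h, Bun.cut_at h, Pi.smul_apply, L.avgf_at _ h, L.avgf_at _ h, smul_eq_mul,
      ← integral_const_mul]
    refine integral_congr_ae (Eventually.of_forall fun t => ?_)
    show (L.pb t (c • s)).f e (e x) i = _
    rw [map_smul]
    rfl

lemma avg_at (L : Lift T B) (s : B.S) {e : Chart n Z} {x : Z} (h : At e x) (i : κ) :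
    (L.avg s).f e (e x) i = ∫ t in cube (0 : Fin r → ℝ), (L.pb t s).f e (e x) i := by
  have h1 : (L.avg s).f e (e x) = L.avgf s e (e x) := Bun.cut_at h
  rw [h1, L.avgf_at s h]

/-- averages are invariant -/
lemma pb_avg (L : Lift T B) (τ : Fin r → ℝ) (s : B.S) : L.pb τ (L.avg s) = L.avg s := by
  refine Bun.S.ext_f fun e x h => ?_
  set e' := chartAt (Cm n) (T.a τ x) with he'
  have hc : At e' (T.a τ x) := at_chartAt' _
  funext i
  have h1 : (L.avg s).f e' (e' (T.a τ x)) = fun j =>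
      ∫ t in cube (0 : Fin r → ℝ), (L.pb t s).f e' (e' (T.a τ x)) j :=
    funext fun j => L.avg_at s hc j
  rw [L.pb_at _ h hc, h1, mulVec_integral (fun j => L.pb_cont s hc j), L.avg_at s h]
  have hper : Per fun t => (L.pb t s).f e (e x) i := fun k t => by
    show (L.pb (t + zv k) s).f e (e x) i = _
    rw [L.pb_add_per]
  rw [← integral_cube_shift hper 0 τ]
  refine integral_congr_ae (Eventually.of_forall fun t => ?_)
  show (L.R τ e e' x *ᵥ (L.pb t s).f e' (e' (T.a τ x))) i = (L.pb (t + τ) s).f e (e x) i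
  rw [L.pb_add, L.pb_at (L.pb t s) h hc]

lemma volume_cube : (volume (cube (0 : Fin r → ℝ))).toReal = 1 := by
  have h1 : cube (0 : Fin r → ℝ) = Set.pi univ fun i => Ioc ((0 : Fin r → ℝ) i) ((1 : Fin r → ℝ) i) := by
    ext x
    simp [cube]
  rw [h1, Real.volume_pi_Ioc_toReal (by intro i; simp)]
  simp

/-- invariant sections are their own average -/
lemma avg_of_inv (L : Lift T B) {s : B.S} (hs : ∀ t, L.pb t s = s) : L.avg s = s := by
  refine Bun.S.ext_f fun e x h => ?_
  funext i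
  rw [L.avg_at s h]
  simp only [hs]
  rw [setIntegral_const, measureReal_def, volume_cube, one_smul]

theorem avg_avg (L : Lift T B) (s : B.S) : L.avg (L.avg s) = L.avg s :=
  L.avg_of_inv fun t => L.pb_avg t s

theorem avg_eq_iff (L : Lift T B) (s : B.S) : L.avg s = s ↔ ∀ t, L.pb t s = s :=
  ⟨fun h t => by rw [← h]; exact L.pb_avg t s, L.avg_of_inv⟩

theorem avg_pb (L : Lift T B) (τ : Fin r → ℝ) (s : B.S) : L.avg (L.pb τ s) = L.avg s := by
  refine Bun.S.ext_f fun e x h => ?_
  funext i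
  rw [L.avg_at _ h, L.avg_at s h]
  have hper : Per fun t => (L.pb t s).f e (e x) i := fun k t => by
    show (L.pb (t + zv k) s).f e (e x) i = _
    rw [L.pb_add_per]
  rw [← integral_cube_shift hper 0 τ]
  refine integral_congr_ae (Eventually.of_forall fun t => ?_)
  show (L.pb t (L.pb τ s)).f e (e x) i = (L.pb (t + τ) s).f e (e x) i
  rw [add_comm, L.pb_add]

end Lift

end

section
variable {r n : ℕ} {Z : Type} [TopologicalSpace Z] [ChartedSpace (Cm n) Z]
  [IsManifold 𝓘(ℂ, Cm n) ω Z] [T2Space Z] [CompactSpace Z] {w : D.FormM n Z}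
  {T : D.TorusAct r n Z w} {κ κ' : Type*} [Fintype κ] [DecidableEq κ] [Fintype κ'] [DecidableEq κ']
  {B : Bun n Z κ} {B' : Bun n Z κ'}

namespace Lift

/-- the pull back is unitary -/
theorem inner_pb (L : Lift T B) (t : Fin r → ℝ) (s u : B.S) :
    inner ℂ (L.pb t s) (L.pb t u) = inner ℂ s u := by
  rw [Bun.inner_eq, Bun.inner_eq]
  exact intC_map (Bun.isDen (L.pb t s).isSec (L.pb t u).isSec) (Bun.isDen s.isSec u.isSec)
    (tHomeo T t) (T.hol t) fun e e' x h h' => L.den_pb s u h h'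

theorem norm_pb (L : Lift T B) (t : Fin r → ℝ) (s : B.S) : ‖L.pb t s‖ = ‖s‖ := by
  rw [@norm_eq_sqrt_re_inner ℂ, @norm_eq_sqrt_re_inner ℂ, L.inner_pb]

theorem inner_pb_left (L : Lift T B) (t : Fin r → ℝ) (s u : B.S) :
    inner ℂ (L.pb t s) u = inner ℂ s (L.pb (-t) u) := by
  rw [← L.inner_pb t s (L.pb (-t) u), L.pb_pb_neg]

omit [IsManifold 𝓘(ℂ, Cm n) ω Z] [T2Space Z] [CompactSpace Z] in
lemma cont_den_pb (L : Lift T B) (s u : B.S) : ∀ e ∈ atlas (Cm n) Z, ContinuousOn
    (fun q : (Fin r → ℝ) × Cm n => B.den (L.pb q.1 s).f u.f e q.2) (univ ×ˢ e.target) := by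
  intro e he
  unfold Bun.den
  simp only [dotProduct]
  refine continuousOn_finsetSum _ fun i _ => ContinuousOn.mul ?_ ?_
  · have h1 : ContinuousOn (fun q : (Fin r → ℝ) × Cm n => conj (L.pbf s q.1 e q.2 i))
        (univ ×ˢ e.target) :=
      Complex.continuous_conj.comp_continuousOn (L.pbf_contDiffOn s he i).continuousOn
    refine h1.congr fun q hq => ?_
    show conj ((L.pb q.1 s).f e q.2 i) = _
    rw [L.pb_f' s he hq.2]
  · have h2 : ContinuousOn (fun z => (B.H e z *ᵥ u.f e z) i) e.target := by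
      simp only [Matrix.mulVec, dotProduct]
      refine continuousOn_finsetSum _ fun j _ => ?_
      intro z hz
      have hz' : At e (e.symm z) := ⟨he, e.map_target hz⟩
      have h4 := (B.H_smooth e _ hz' i j).continuousAt
      have h5 := (u.smooth hz' j).continuousAt
      rw [e.right_inv hz] at h4 h5
      exact (h4.mul h5).continuousWithinAt
    exact h2.comp continuous_snd.continuousOn fun q hq => hq.2

/-- **the inner product with an average** -/
theorem inner_avg (L : Lift T B) (s u : B.S) :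
    inner ℂ (L.avg s) u = ∫ t in cube (0 : Fin r → ℝ), inner ℂ (L.pb t s) u := by
  rw [Bun.inner_eq]
  have h1 := (intC_integral (F := fun t => B.den (L.pb t s).f u.f) (L.cont_den_pb s u) 0).2
  refine Eq.trans (intC_congr fun e x h => ?_) h1
  show B.den (L.avg s).f u.f e (e x) =
    ∫ t in cube (0 : Fin r → ℝ), B.den (L.pb t s).f u.f e (e x)
  unfold Bun.den
  simp only [dotProduct]
  rw [integral_finsetSum]
  · refine Finset.sum_congr rfl fun i _ => ?_
    rw [integral_mul_const]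
    congr 1
    show conj ((L.avg s).f e (e x) i) = _
    rw [L.avg_at s h, ← integral_conj]
    rfl
  · intro i _
    refine Integrable.mul_const ?_ _
    exact integrableOn_cube (Complex.continuous_conj.comp (L.pb_cont s h i)) 0

theorem integrable_inner_pb (L : Lift T B) (s u : B.S) :
    IntegrableOn (fun t => inner ℂ (L.pb t s) u) (cube (0 : Fin r → ℝ)) :=
  (intC_integral (F := fun t => B.den (L.pb t s).f u.f) (L.cont_den_pb s u) 0).1

theorem inner_avg_avg (L : Lift T B) (s u : B.S) :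
    inner ℂ (L.avg s) u = inner ℂ (L.avg s) (L.avg u) := by
  have h1 : ∀ t, inner ℂ (L.pb t u) (L.avg s) = inner ℂ u (L.avg s) := fun t => by
    rw [← L.inner_pb t u (L.avg s), L.pb_avg]
  rw [← inner_conj_symm (L.avg s) (L.avg u), L.inner_avg u (L.avg s)]
  simp only [h1]
  rw [setIntegral_const, measureReal_def, volume_cube, one_smul, inner_conj_symm]

/-- the average is a symmetric operator -/
theorem avg_symm (L : Lift T B) (s u : B.S) : inner ℂ (L.avg s) u = inner ℂ s (L.avg u) := by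
  rw [L.inner_avg_avg, ← inner_conj_symm s (L.avg u), L.inner_avg_avg u s, inner_conj_symm]

/-- **operators commuting with the pull backs commute with the average** -/
theorem avg_comm (L : Lift T B) (L' : Lift T B') {E : B.S →ₗ[ℂ] B'.S} {E' : B'.S →ₗ[ℂ] B.S}
    (hadj : ∀ s u, inner ℂ (E s) u = inner ℂ s (E' u))
    (hcomm : ∀ t s, E (L.pb t s) = L'.pb t (E s)) (s : B.S) : E (L.avg s) = L'.avg (E s) := by
  refine ext_inner_right ℂ fun u => ?_
  rw [hadj, L.inner_avg, L'.inner_avg]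
  refine integral_congr_ae (Eventually.of_forall fun t => ?_)
  show inner ℂ (L.pb t s) (E' u) = inner ℂ (L'.pb t (E s)) u
  rw [← hadj, hcomm]

/-- the adjoint of an operator commuting with the pull backs commutes with them as well -/
theorem pb_comm_adj (L : Lift T B) (L' : Lift T B') {E : B.S →ₗ[ℂ] B'.S} {E' : B'.S →ₗ[ℂ] B.S}
    (hadj : ∀ s u, inner ℂ (E s) u = inner ℂ s (E' u))
    (hcomm : ∀ t s, E (L.pb t s) = L'.pb t (E s)) (t : Fin r → ℝ) (u : B'.S) :
    E' (L'.pb t u) = L.pb t (E' u) := by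
  refine ext_inner_left ℂ fun s => ?_
  rw [← hadj, ← L.pb_pb_neg t s, L.inner_pb, hcomm, L'.inner_pb, hadj]

end Lift

end

end Vale.Agent.P299.IX
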